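import Vale.Agent.P034.MathlibUsed
import Vale.Agent.P034.Defs

set_option linter.all false

section

namespace Vale.Agent.P034

open Finset

set_option linter.unusedSectionVars false

variable {X : Type*} [Fintype X] [DecidableEq X]

noncomputable def topSum (l : X → ℝ) (m : ℕ) : ℝ :=
  (univ.filter (fun Y : Finset X => Y.card ≤ m)).sup' ⟨∅, by simp⟩ (fun Y => ∑ x ∈ Y, l x)

theorem le_topSum (l : X → ℝ) {m : ℕ} {Y : Finset X} (hY : Y.card ≤ m) :
    ∑ x ∈ Y, l x ≤ topSum l m := by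
  unfold topSum
  exact Finset.le_sup' (fun Y : Finset X => ∑ x ∈ Y, l x) (by simp only [mem_filter, mem_univ, hY, and_self])

theorem exists_topSum (l : X → ℝ) (m : ℕ) :
    ∃ Y : Finset X, Y.card ≤ m ∧ topSum l m = ∑ x ∈ Y, l x := by
  unfold topSum
  obtain ⟨Y, hY, h⟩ := Finset.exists_mem_eq_sup'
    (s := univ.filter (fun Y : Finset X => Y.card ≤ m)) ⟨∅, by simp only [mem_filter, mem_univ, card_empty, zero_le, and_self]⟩ (fun Y => ∑ x ∈ Y, l x)
  exact ⟨Y, by simpa only [mem_filter, mem_univ, true_and] using hY, h⟩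

theorem topSum_nonneg (l : X → ℝ) (m : ℕ) : 0 ≤ topSum l m := by
  have := le_topSum l (m := m) (Y := ∅) (by simp)
  simpa only [ge_iff_le, sum_empty] using this

theorem topSum_mono (l : X → ℝ) {m n : ℕ} (h : m ≤ n) : topSum l m ≤ topSum l n := by
  obtain ⟨Y, hY, he⟩ := exists_topSum l m
  rw [he]
  exact le_topSum l (hY.trans h)

theorem topSum_le_sum (l : X → ℝ) (hl : ∀ x, 0 ≤ l x) (m : ℕ) :
    topSum l m ≤ ∑ x, l x := by
  obtain ⟨Y, _, he⟩ := exists_topSum l m
  rw [he]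
  exact Finset.sum_le_univ_sum_of_nonneg hl

theorem card_gt_le (l : X → ℝ) (C n : ℕ) (hC : 0 < C) (hn : 0 < n) (N : Finset X)
    (hN : ∀ x ∈ N, (topSum l (C * n) - topSum l (C * (n - 1))) / C < l x) :
    N.card ≤ C * n := by
  by_contra hcon
  push Not at hcon
  obtain ⟨Y, hY, he⟩ := exists_topSum l (C * (n - 1))
  have h1 : C ≤ (N \ Y).card := by
    have h2 : N.card ≤ (N \ Y).card + Y.card := by
      have := Finset.card_le_card_sdiff_add_card (s := N) (t := Y)
      omega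
    have h3 : C * n = C * (n - 1) + C := by
      obtain ⟨k, rfl⟩ : ∃ k, n = k + 1 := ⟨n - 1, by omega⟩
      simp only [Nat.mul_add, mul_one, add_tsub_cancel_right, Nat.add_left_cancel_iff]
    omega
  obtain ⟨Z, hZ, hZc⟩ := Finset.exists_subset_card_eq h1
  have hdisj : Disjoint Y Z := by
    rw [Finset.disjoint_left]
    intro x hx hxZ
    have := hZ hxZ
    simp at this
    exact this.2 hx
  have h4 : (Y ∪ Z).card ≤ C * n := by
    have := Finset.card_union_le Y Z
    have h3 : C * n = C * (n - 1) + C := by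
      obtain ⟨k, rfl⟩ : ∃ k, n = k + 1 := ⟨n - 1, by omega⟩
      simp only [Nat.mul_add, mul_one, add_tsub_cancel_right, Nat.add_left_cancel_iff]
    omega
  have h5 := le_topSum l h4
  rw [Finset.sum_union hdisj, ← he] at h5
  have hCpos : (0 : ℝ) < C := by exact_mod_cast hC
  have h6 : C * ((topSum l (C * n) - topSum l (C * (n - 1))) / C) < ∑ x ∈ Z, l x := by
    have : ∑ x ∈ Z, ((topSum l (C * n) - topSum l (C * (n - 1))) / C) < ∑ x ∈ Z, l x := by
      apply Finset.sum_lt_sum_of_nonempty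
      · rw [← Finset.card_pos]; omega
      · intro x hx
        apply hN
        have := hZ hx
        simp at this
        exact this.1
    simpa only [gt_iff_lt, sum_const, hZc, nsmul_eq_mul] using this
  rw [mul_div_cancel₀ _ hCpos.ne'] at h6
  linarith only [h5, h6]

end Vale.Agent.P034
end

section

namespace Vale.Agent.P034

open Finset

set_option linter.unusedSectionVars false

variable {X : Type*} [Fintype X] [DecidableEq X]

def Cc (j : ℕ) : ℕ := 4 * 2 ^ j

theorem Cc_pos (j : ℕ) : 0 < Cc j := by unfold Cc; (clear * -; positivity)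

def diffSet (φ ψ : X → ℕ) : Finset X := univ.filter (fun x => ψ x < φ x)

theorem mem_diffSet (φ ψ : X → ℕ) (x : X) : x ∈ diffSet φ ψ ↔ ψ x < φ x := by
  simp only [diffSet, mem_filter, mem_univ, true_and]

def cnt (φ ψ : X → ℕ) (j : ℕ) : ℕ := (univ.filter (fun x => ψ x < φ x ∧ ψ x ≤ j)).card

noncomputable def AA (J : ℕ) (l : X → ℝ) (ψ : X → ℕ) (n : ℕ → ℕ) : ℝ :=
  ∑ x, l x * ψ x + ∑ j ∈ range J, topSum l (Cc j * n j) / Cc j

theorem cnt_step_le (φ ψ : X → ℕ) (x : X) (i : ℕ) :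
    cnt φ (Function.update ψ x (ψ x + 1)) i ≤ cnt φ ψ i := by
  unfold cnt
  apply Finset.card_le_card
  intro y hy
  simp only [mem_filter, mem_univ, true_and] at hy ⊢
  by_cases hyx : y = x
  · subst hyx
    simp only [Function.update_self, Order.add_one_le_iff] at hy
    omega
  · rw [Function.update_of_ne hyx] at hy
    exact hy

theorem cnt_step_self (φ ψ : X → ℕ) (x : X) (hx : ψ x < φ x) :
    cnt φ (Function.update ψ x (ψ x + 1)) (ψ x) ≤ cnt φ ψ (ψ x) - 1 := by
  unfold cnt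
  have hmem : x ∈ univ.filter (fun y => ψ y < φ y ∧ ψ y ≤ ψ x) := by
    simp only [mem_filter, mem_univ, hx, Std.le_refl, and_self]
  rw [← Finset.card_erase_of_mem hmem]
  apply Finset.card_le_card
  intro y hy
  simp only [mem_filter, mem_univ, true_and, mem_erase] at hy ⊢
  by_cases hyx : y = x
  · subst hyx
    simp at hy
  · rw [Function.update_of_ne hyx] at hy
    exact ⟨hyx, hy⟩

theorem AA_step (J : ℕ) (l : X → ℝ) (φ ψ : X → ℕ) (x : X) (hx : ψ x < φ x) (hJ : ψ x < J)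
    (hlx : l x ≤ (topSum l (Cc (ψ x) * cnt φ ψ (ψ x))
      - topSum l (Cc (ψ x) * (cnt φ ψ (ψ x) - 1))) / Cc (ψ x)) :
    AA J l (Function.update ψ x (ψ x + 1)) (cnt φ (Function.update ψ x (ψ x + 1)))
      ≤ AA J l ψ (cnt φ ψ) := by
  unfold AA
  have h1 : ∑ y, l y * ((Function.update ψ x (ψ x + 1) y : ℕ) : ℝ)
      = ∑ y, l y * (ψ y : ℝ) + l x := by
    have h : ∀ y, l y * ((Function.update ψ x (ψ x + 1) y : ℕ) : ℝ)
        = l y * (ψ y : ℝ) + if y = x then l x else 0 := by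
      intro y
      by_cases hyx : y = x
      · subst hyx
        simp only [Function.update_self, Nat.cast_add, Nat.cast_one, ↓reduceIte]
        ring
      · rw [Function.update_of_ne hyx]
        simp [hyx]
    rw [Finset.sum_congr rfl (fun y _ => h y), Finset.sum_add_distrib]
    simp only [sum_ite_eq', mem_univ, ↓reduceIte]
  rw [h1]
  have hmem : ψ x ∈ range J := by simpa using hJ
  rw [← Finset.add_sum_erase _ _ hmem, ← Finset.add_sum_erase (range J)
    (fun j => topSum l (Cc j * cnt φ ψ j) / (Cc j : ℝ)) hmem]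
  have h2 : ∑ j ∈ (range J).erase (ψ x),
      topSum l (Cc j * cnt φ (Function.update ψ x (ψ x + 1)) j) / (Cc j : ℝ)
      ≤ ∑ j ∈ (range J).erase (ψ x), topSum l (Cc j * cnt φ ψ j) / (Cc j : ℝ) := by
    apply Finset.sum_le_sum
    intro j _
    apply div_le_div_of_nonneg_right _ (by (clear * -; positivity))
    exact topSum_mono l (Nat.mul_le_mul_left _ (cnt_step_le φ ψ x j))
  have h3 : topSum l (Cc (ψ x) * cnt φ (Function.update ψ x (ψ x + 1)) (ψ x)) / (Cc (ψ x) : ℝ)
      ≤ topSum l (Cc (ψ x) * (cnt φ ψ (ψ x) - 1)) / (Cc (ψ x) : ℝ) := by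
    apply div_le_div_of_nonneg_right _ (by positivity)
    exact topSum_mono l (Nat.mul_le_mul_left _ (cnt_step_self φ ψ x hx))
  rw [sub_div] at hlx
  linarith only [hlx, h2, h3]

theorem sum_inv_Cc (J : ℕ) : ∑ j ∈ range J, (1 : ℝ) / (Cc j : ℝ) ≤ 1 / 2 := by
  have h : ∀ j, (1 : ℝ) / (Cc j : ℝ) = (1 / 4) * (1 / (2 : ℝ)) ^ j := by
    intro j
    unfold Cc
    push_cast
    rw [one_div_pow]
    (clear * -; field_simp)
  rw [Finset.sum_congr rfl (fun j _ => h j), ← Finset.mul_sum]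
  have := sum_geometric_two_le J
  linarith only [this]

theorem exists_valid (J : ℕ) (F : Finset (Finset X)) (lam : Finset X → X → ℝ)
    (hl : ∀ H ∈ F, ∀ x, 0 ≤ lam H x) (hsum : ∀ H ∈ F, ∑ x, lam H x ≤ 1)
    (hsupp : ∀ H ∈ F, ∀ x, x ∉ H → lam H x = 0) (φ : X → ℕ) (hφ : ∀ x, φ x ≤ J)
    (H : Finset X) (hH : H ∈ F) :
    ∃ ψ : X → ℕ, (∀ x, ψ x ≤ φ x) ∧ diffSet φ ψ ⊆ H ∧
      (∃ H' ∈ F, AA J (lam H') ψ (cnt φ ψ) ≤ 1 / 2) ∧
      ∀ H' ∈ F, AA J (lam H') ψ (cnt φ ψ) ≤ 1 / 2 → ∀ x, ψ x < φ x →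
        (topSum (lam H') (Cc (ψ x) * cnt φ ψ (ψ x))
          - topSum (lam H') (Cc (ψ x) * (cnt φ ψ (ψ x) - 1))) / Cc (ψ x) < lam H' x := by
  classical
  set S : Finset (X → ℕ) := (Fintype.piFinset (fun x => range (φ x + 1))).filter
    (fun ψ => diffSet φ ψ ⊆ H ∧ ∃ H' ∈ F, AA J (lam H') ψ (cnt φ ψ) ≤ 1 / 2) with hS
  have hne : S.Nonempty := by
    refine ⟨fun x => if x ∈ H then 0 else φ x, ?_⟩
    rw [hS, Finset.mem_filter]
    refine ⟨?_, ?_, H, hH, ?_⟩
    · rw [Fintype.mem_piFinset]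
      intro x
      simp only [mem_range]
      split_ifs <;> omega
    · intro x hx
      rw [mem_diffSet] at hx
      by_contra hxH
      simp [hxH] at hx
    · unfold AA
      have h1 : ∑ x, lam H x * (((if x ∈ H then 0 else φ x : ℕ)) : ℝ) = 0 := by
        apply Finset.sum_eq_zero
        intro x _
        by_cases hxH : x ∈ H
        · simp [hxH]
        · simp [hsupp H hH x hxH]
      rw [h1, zero_add]
      refine le_trans (Finset.sum_le_sum ?_) (sum_inv_Cc J)
      intro j _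
      apply div_le_div_of_nonneg_right _ (by (clear * -; positivity))
      exact (topSum_le_sum _ (hl H hH) _).trans (hsum H hH)
  obtain ⟨ψ, hψ⟩ := S.exists_maximal hne
  have hψS : ψ ∈ S := hψ.prop
  have hψS' := hψS
  rw [hS, Finset.mem_filter, Fintype.mem_piFinset] at hψS'
  obtain ⟨hle, hsub, hex⟩ := hψS'
  have hle' : ∀ x, ψ x ≤ φ x := by
    intro x
    have := hle x
    simp at this
    omega
  refine ⟨ψ, hle', hsub, hex, ?_⟩
  intro H' hH' hA x hx
  by_contra hcon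
  push Not at hcon
  have hstep := AA_step J (lam H') φ ψ x hx (lt_of_lt_of_le hx (hφ x)) hcon
  have hnew : Function.update ψ x (ψ x + 1) ∈ S := by
    rw [hS, Finset.mem_filter, Fintype.mem_piFinset]
    refine ⟨?_, ?_, H', hH', hstep.trans hA⟩
    · intro y
      by_cases hyx : y = x
      · subst hyx
        simp
        omega
      · rw [Function.update_of_ne hyx]
        exact hle y
    · intro y hy
      apply hsub
      rw [mem_diffSet] at hy ⊢
      by_cases hyx : y = x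
      · subst hyx; exact hx
      · rw [Function.update_of_ne hyx] at hy
        exact hy
  have hge : ψ ≤ Function.update ψ x (ψ x + 1) := by
    intro y
    by_cases hyx : y = x
    · subst hyx; simp only [Function.update_self, le_add_iff_nonneg_right, zero_le]
    · rw [Function.update_of_ne hyx]
  have := hψ.le_of_ge hnew hge x
  simp only [Function.update_self, add_le_iff_nonpos_right, nonpos_iff_eq_zero, one_ne_zero] at this

end Vale.Agent.P034
end

section

namespace Vale.Agent.P034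

open Finset
set_option linter.unusedSectionVars false

variable {X : Type*} [Fintype X] [DecidableEq X]

def prof (ψ : X → ℕ) (T : Finset X) (i : ℕ) : ℕ := (T.filter (fun x => ψ x = i)).card

noncomputable def wt (j : ℕ) : ℝ := 1 / (200 * 4 ^ j)

theorem wt_pos (j : ℕ) : 0 < wt j := by unfold wt; positivity

theorem cnt_eq (φ ψ : X → ℕ) (j : ℕ) :
    cnt φ ψ j = ∑ i ∈ range (j + 1), prof ψ (diffSet φ ψ) i := by
  unfold cnt prof
  have h : (univ.filter (fun x => ψ x < φ x ∧ ψ x ≤ j)) =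
      (diffSet φ ψ).filter (fun x => ψ x ≤ j) := by
    ext x; simp only [mem_filter, mem_univ, true_and, diffSet]
  rw [h, Finset.card_eq_sum_card_fiberwise (f := ψ) (t := range (j + 1))]
  · apply Finset.sum_congr rfl
    intro i hi
    congr 1
    ext x
    simp only [mem_filter]
    simp only [mem_range] at hi
    constructor
    · rintro ⟨⟨h1, _⟩, h3⟩; exact ⟨h1, h3⟩
    · rintro ⟨h1, h3⟩; exact ⟨⟨h1, by omega⟩, h3⟩
  · intro x hx
    simp only [Finset.mem_coe, mem_filter] at hx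
    simp only [coe_range, Set.mem_Iio]
    omega

theorem sum_prof (J : ℕ) (ψ : X → ℕ) (T : Finset X) (hT : ∀ x ∈ T, ψ x < J) :
    ∑ i ∈ range J, prof ψ T i = T.card := by
  unfold prof
  symm
  apply Finset.card_eq_sum_card_fiberwise
  intro x hx
  simpa using hT x hx

theorem prod_wt (J : ℕ) (ψ : X → ℕ) (T : Finset X) (hT : ∀ x ∈ T, ψ x < J) :
    ∏ x ∈ T, wt (ψ x) = ∏ j ∈ range J, wt j ^ prof ψ T j := by
  rw [← Finset.prod_fiberwise_of_maps_to (g := ψ) (t := range J)]
  · apply Finset.prod_congr rfl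
    intro j _
    unfold prof
    rw [← Finset.prod_const]
    apply Finset.prod_congr rfl
    intro x hx
    simp only [mem_filter] at hx
    rw [hx.2]
  · intro x hx
    simpa using hT x hx

theorem card_prof_le (J : ℕ) (ψ : X → ℕ) (N : Finset X) (t : ℕ → ℕ)
    (V : Finset (Finset X)) (hV : ∀ T ∈ V, T ⊆ N ∧ (∀ x ∈ T, ψ x < J) ∧ prof ψ T = t) :
    V.card ≤ ∏ j ∈ range J, ((N.filter (fun x => ψ x = j)).card).choose (t j) := by
  classical
  have h : ((range J).pi (fun j => (N.filter (fun x => ψ x = j)).powersetCard (t j))).card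
      = ∏ j ∈ range J, ((N.filter (fun x => ψ x = j)).card).choose (t j) := by
    rw [Finset.card_pi]
    apply Finset.prod_congr rfl
    intro j _
    rw [Finset.card_powersetCard]
  rw [← h]
  apply Finset.card_le_card_of_injOn
    (fun T => fun (j : ℕ) (_ : j ∈ range J) => T.filter (fun x => ψ x = j))
  · intro T hT
    obtain ⟨h1, h2, h3⟩ := hV T hT
    simp only [Finset.mem_coe, Finset.mem_pi, mem_powersetCard]
    intro j _
    refine ⟨Finset.filter_subset_filter _ h1, ?_⟩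
    rw [← h3]; rfl
  · intro T hT T' hT' heq
    obtain ⟨h1, h2, h3⟩ := hV T hT
    obtain ⟨h1', h2', h3'⟩ := hV T' hT'
    ext x
    constructor
    · intro hx
      have hj : ψ x ∈ range J := by simpa using h2 x hx
      have := congrFun (congrFun heq (ψ x)) hj
      have hx' : x ∈ T.filter (fun y => ψ y = ψ x) := by simp [hx]
      simp only at this
      rw [this] at hx'
      exact (Finset.mem_filter.mp hx').1
    · intro hx
      have hj : ψ x ∈ range J := by simpa using h2' x hx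
      have := congrFun (congrFun heq (ψ x)) hj
      have hx' : x ∈ T'.filter (fun y => ψ y = ψ x) := by simp [hx]
      simp only at this
      rw [← this] at hx'
      exact (Finset.mem_filter.mp hx').1

theorem sum_wt_Cc (J : ℕ) : ∑ j ∈ range J, wt j * (Cc j : ℝ) ≤ 1 / 25 := by
  have h : ∀ j, wt j * (Cc j : ℝ) = (1 / 50) * (1 / (2 : ℝ)) ^ j := by
    intro j
    unfold Cc wt
    push_cast
    rw [one_div_pow]
    have : (4 : ℝ) ^ j = 2 ^ j * 2 ^ j := by
      rw [← mul_pow]; norm_num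
    rw [this]
    field_simp
    norm_num
  rw [Finset.sum_congr rfl (fun j _ => h j), ← Finset.mul_sum]
  have := sum_geometric_two_le J
  linarith

theorem multi_bound (J n : ℕ) (hn : 0 < n) :
    ∑ t ∈ piAntidiag (range J) n, ∏ j ∈ range J, (wt j * ((Cc j : ℝ) * n)) ^ t j / (Nat.factorial (t j) : ℝ)
      ≤ (1 / 9) ^ n := by
  have h1 : ∀ t ∈ piAntidiag (range J) n,
      ∏ j ∈ range J, (wt j * ((Cc j : ℝ) * n)) ^ t j / (Nat.factorial (t j) : ℝ)
        = (1 / (Nat.factorial n : ℝ)) * ((Nat.multinomial (range J) t : ℝ) *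
          ∏ j ∈ range J, (wt j * ((Cc j : ℝ) * n)) ^ t j) := by
    intro t ht
    rw [mem_piAntidiag] at ht
    have hspec := Nat.multinomial_spec (range J) t
    rw [ht.1] at hspec
    have hspec' : (∏ j ∈ range J, (Nat.factorial (t j) : ℝ)) * (Nat.multinomial (range J) t : ℝ)
        = (Nat.factorial n : ℝ) := by
      rw [← hspec]; push_cast; ring
    rw [Finset.prod_div_distrib, ← hspec']
    have hp : (∏ j ∈ range J, (Nat.factorial (t j) : ℝ)) ≠ 0 := by
      apply Finset.prod_ne_zero_iff.mpr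
      intro j _
      exact_mod_cast Nat.factorial_ne_zero _
    have hm : (Nat.multinomial (range J) t : ℝ) ≠ 0 := by
      intro h0
      rw [h0, mul_zero] at hspec'
      exact (Nat.factorial_ne_zero n) (by exact_mod_cast hspec'.symm)
    rw [div_eq_iff hp, one_div, mul_inv]
    set P := ∏ j ∈ range J, (wt j * ((Cc j : ℝ) * n)) ^ t j
    set A := ∏ j ∈ range J, (Nat.factorial (t j) : ℝ)
    field_simp
  rw [Finset.sum_congr rfl h1, ← Finset.mul_sum, ← Finset.sum_pow_eq_sum_piAntidiag]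
  have h2 : ∑ j ∈ range J, wt j * ((Cc j : ℝ) * n) ≤ (1 / 25) * n := by
    have : ∑ j ∈ range J, wt j * ((Cc j : ℝ) * n) = (∑ j ∈ range J, wt j * (Cc j : ℝ)) * n := by
      rw [Finset.sum_mul]
      apply Finset.sum_congr rfl
      intro j _
      ring
    rw [this]
    exact mul_le_mul_of_nonneg_right (sum_wt_Cc J) (by positivity)
  have h3 : 0 ≤ ∑ j ∈ range J, wt j * ((Cc j : ℝ) * n) := by
    apply Finset.sum_nonneg
    intro j _
    have := wt_pos j
    positivity
  have h4 : (∑ j ∈ range J, wt j * ((Cc j : ℝ) * n)) ^ n ≤ ((1 / 25) * n) ^ n :=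
    pow_le_pow_left₀ h3 h2 n
  have h5 : (n : ℝ) ^ n / (Nat.factorial n : ℝ) ≤ Real.exp n :=
    Real.pow_div_factorial_le_exp (n : ℝ) (by positivity) n
  have h6 : Real.exp n ≤ (25 / 9) ^ n := by
    have : Real.exp (n : ℝ) = Real.exp 1 ^ n := by
      rw [← Real.exp_nat_mul]; simp
    rw [this]
    apply pow_le_pow_left₀ (Real.exp_pos 1).le
    have := Real.exp_one_lt_d9
    linarith only [this]
  have hfac : (0 : ℝ) < (Nat.factorial n : ℝ) := by exact_mod_cast Nat.factorial_pos n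
  calc 1 / (Nat.factorial n : ℝ) * (∑ j ∈ range J, wt j * ((Cc j : ℝ) * n)) ^ n
      ≤ 1 / (Nat.factorial n : ℝ) * ((1 / 25) * n) ^ n :=
        mul_le_mul_of_nonneg_left h4 (by positivity)
    _ = (1 / 25) ^ n * ((n : ℝ) ^ n / (Nat.factorial n : ℝ)) := by rw [mul_pow]; ring
    _ ≤ (1 / 25) ^ n * (25 / 9) ^ n :=
        mul_le_mul_of_nonneg_left (h5.trans h6) (by positivity)
    _ = (1 / 9) ^ n := by rw [← mul_pow]; norm_num

theorem geom_bound (M : ℕ) : ∑ n ∈ Icc 1 M, ((1 : ℝ) / 9) ^ n ≤ 1 / 8 := by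
  have h : ∑ n ∈ Icc 1 M, ((1 : ℝ) / 9) ^ n = 1 / 8 - (1 / 8) * (1 / 9) ^ M := by
    induction M with
    | zero => simp only [Order.lt_one_iff, Icc_eq_empty_of_lt, one_div, inv_pow, sum_empty, pow_zero, mul_one, sub_self]
    | succ k ih =>
      rw [Finset.sum_Icc_succ_top (by omega), ih, pow_succ]
      ring
  rw [h]
  have : (0 : ℝ) ≤ (1 / 9) ^ M := by positivity
  linarith only [this]

theorem count_bound (J : ℕ) (ψ : X → ℕ) (N : (ℕ → ℕ) → Finset X)
    (hN : ∀ t : ℕ → ℕ, ∀ j ∈ range J,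
      ((N t).filter (fun x => ψ x = j)).card ≤ Cc j * ∑ i ∈ range (j + 1), t i) :
    ∑ T ∈ univ.filter (fun T : Finset X => T.Nonempty ∧ (∀ x ∈ T, ψ x < J) ∧
      T ⊆ N (prof ψ T)), ∏ x ∈ T, wt (ψ x) ≤ 1 / 8 := by
  classical
  set V := univ.filter (fun T : Finset X => T.Nonempty ∧ (∀ x ∈ T, ψ x < J) ∧
      T ⊆ N (prof ψ T)) with hV
  refine le_trans ?_ (geom_bound (Fintype.card X))
  rw [← Finset.sum_fiberwise_of_maps_to (g := fun T : Finset X => T.card)
    (t := Icc 1 (Fintype.card X))]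
  swap
  · intro T hT
    rw [hV, mem_filter] at hT
    rw [mem_Icc]
    exact ⟨Finset.card_pos.mpr hT.2.1, Finset.card_le_univ T⟩
  apply Finset.sum_le_sum
  intro n hn
  rw [mem_Icc] at hn
  refine le_trans ?_ (multi_bound J n (by omega))
  rw [← Finset.sum_fiberwise_of_maps_to (g := fun T : Finset X => prof ψ T)
    (t := piAntidiag (range J) n)]
  swap
  · intro T hT
    rw [mem_filter, hV, mem_filter] at hT
    rw [mem_piAntidiag]
    obtain ⟨⟨_, _, h2, _⟩, h3⟩ := hT
    refine ⟨?_, ?_⟩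
    · rw [sum_prof J ψ T h2]; exact h3
    · intro i hi
      unfold prof at hi
      obtain ⟨x, hx⟩ := Finset.card_pos.mp (Nat.pos_of_ne_zero hi)
      rw [mem_filter] at hx
      rw [mem_range, ← hx.2]
      exact h2 x hx.1
  apply Finset.sum_le_sum
  intro t ht
  rw [mem_piAntidiag] at ht
  set W := (V.filter (fun T => T.card = n)).filter (fun T => prof ψ T = t) with hW
  have hWmem : ∀ T ∈ W, T ⊆ N t ∧ (∀ x ∈ T, ψ x < J) ∧ prof ψ T = t := by
    intro T hT
    rw [hW, mem_filter, mem_filter, hV, mem_filter] at hT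
    obtain ⟨⟨⟨_, _, h2, h3⟩, _⟩, h5⟩ := hT
    rw [h5] at h3
    exact ⟨h3, h2, h5⟩
  have h1 : ∀ T ∈ W, ∏ x ∈ T, wt (ψ x) = ∏ j ∈ range J, wt j ^ t j := by
    intro T hT
    obtain ⟨_, h2, h3⟩ := hWmem T hT
    rw [prod_wt J ψ T h2, h3]
  rw [Finset.sum_congr rfl h1, Finset.sum_const, nsmul_eq_mul]
  have hcard := card_prof_le J ψ (N t) t W hWmem
  have hcard' : (W.card : ℝ) ≤ ∏ j ∈ range J, ((Cc j : ℝ) * n) ^ t j / (Nat.factorial (t j) : ℝ) := by
    have h2 : (W.card : ℝ) ≤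
        ∏ j ∈ range J, ((((N t).filter (fun x => ψ x = j)).card).choose (t j) : ℝ) := by
      exact_mod_cast hcard
    refine h2.trans ?_
    apply Finset.prod_le_prod
    · intro j _; (clear * -; positivity)
    · intro j hj
      refine (Nat.choose_le_pow_div (α := ℝ) (t j) _).trans ?_
      apply div_le_div_of_nonneg_right _ (by positivity)
      apply pow_le_pow_left₀ (by (clear * -; positivity))
      have h3 := hN t j hj
      have h4 : ∑ i ∈ range (j + 1), t i ≤ n := by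
        rw [← ht.1]
        apply Finset.sum_le_sum_of_subset
        intro i hi
        rw [mem_range] at hi hj ⊢
        omega
      have h5 : ((N t).filter (fun x => ψ x = j)).card ≤ Cc j * n :=
        h3.trans (Nat.mul_le_mul_left _ h4)
      exact_mod_cast h5
  calc (W.card : ℝ) * ∏ j ∈ range J, wt j ^ t j
      ≤ (∏ j ∈ range J, ((Cc j : ℝ) * n) ^ t j / (Nat.factorial (t j) : ℝ)) * ∏ j ∈ range J, wt j ^ t j := by
        apply mul_le_mul_of_nonneg_right hcard'
        apply Finset.prod_nonneg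
        intro j _
        have := wt_pos j
        positivity
    _ = ∏ j ∈ range J, (wt j * ((Cc j : ℝ) * n)) ^ t j / (Nat.factorial (t j) : ℝ) := by
        rw [← Finset.prod_mul_distrib]
        apply Finset.prod_congr rfl
        intro j _
        rw [mul_pow]
        ring

end Vale.Agent.P034
end

section

namespace Vale.Agent.P034

open Finset

set_option linter.unusedSectionVars false

variable {X : Type*} [Fintype X] [DecidableEq X]

noncomputable def lvl (q : ℝ) (J j : ℕ) : ℝ :=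
  if j < J then 200 * 4 ^ j * q else 1 - ∑ i ∈ range J, 200 * 4 ^ i * q

theorem sum_lvl (q : ℝ) (J : ℕ) : ∑ j ∈ range (J + 1), lvl q J j = 1 := by
  rw [Finset.sum_range_succ]
  have h1 : ∑ j ∈ range J, lvl q J j = ∑ i ∈ range J, 200 * 4 ^ i * q := by
    apply Finset.sum_congr rfl
    intro j hj
    rw [mem_range] at hj
    simp [lvl, hj]
  rw [h1]
  simp [lvl]

theorem lvl_nonneg (q : ℝ) (hq : 0 ≤ q) (J : ℕ) (hJ : ∑ i ∈ range J, 200 * 4 ^ i * q ≤ 1)
    (j : ℕ) : 0 ≤ lvl q J j := by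
  unfold lvl
  split_ifs
  · positivity
  · linarith only [hJ]

theorem lvl_mul_wt (q : ℝ) (J j : ℕ) (hj : j < J) : lvl q J j * wt j = q := by
  unfold lvl wt
  rw [if_pos hj]
  field_simp

theorem exists_J (q : ℝ) (hq : 0 < q) :
    ∃ J : ℕ, ∑ i ∈ range J, 200 * 4 ^ i * q ≤ 1 ∧ 1 / 2 ≤ 200 * 4 ^ J * q := by
  have hex : ∃ J : ℕ, 1 / 2 ≤ 200 * 4 ^ J * q := by
    obtain ⟨n, hn⟩ := pow_unbounded_of_one_lt (1 / q) (show (1 : ℝ) < 4 by norm_num)
    refine ⟨n, ?_⟩
    rw [div_lt_iff₀ hq] at hn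
    linarith
  classical
  refine ⟨Nat.find hex, ?_, Nat.find_spec hex⟩
  have hsum : ∀ J : ℕ, ∑ i ∈ range J, 200 * 4 ^ i * q = 200 * q * (4 ^ J - 1) / 3 := by
    intro J
    induction J with
    | zero => simp
    | succ k ih =>
      rw [Finset.sum_range_succ, ih, pow_succ]
      ring
  rw [hsum]
  rcases Nat.eq_zero_or_pos (Nat.find hex) with h0 | h0
  · rw [h0]; simp only [pow_zero, sub_self, mul_zero, zero_div, zero_le_one]
  · have hlt := Nat.find_min hex (Nat.sub_lt h0 one_pos)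
    push Not at hlt
    have h4 : (4 : ℝ) ^ Nat.find hex = 4 * 4 ^ (Nat.find hex - 1) := by
      rw [← pow_succ']; congr 1; omega
    rw [h4]
    nlinarith only [hq, hlt]

theorem inner_sum (q : ℝ) (hq : 0 ≤ q) (J : ℕ) (hJ : ∑ i ∈ range J, 200 * 4 ^ i * q ≤ 1)
    (ψ : X → ℕ) (T : Finset X) (hT : ∀ x ∈ T, ψ x < J)
    (S : Finset (X → ℕ)) (hS : ∀ φ ∈ S, (∀ x, ψ x ≤ φ x) ∧ (∀ x, φ x ≤ J) ∧ diffSet φ ψ = T) :
    ∑ φ ∈ S, (∏ x, lvl q J (φ x)) * q ^ (diffSet φ ψ).card
      ≤ (∏ x, lvl q J (ψ x)) * ∏ x ∈ T, wt (ψ x) := by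
  have hlv := lvl_nonneg q hq J hJ
  have h1 : ∑ φ ∈ S, (∏ x, lvl q J (φ x)) * q ^ (diffSet φ ψ).card
      = (∑ φ ∈ S, ∏ x, lvl q J (φ x)) * q ^ T.card := by
    rw [Finset.sum_mul]
    apply Finset.sum_congr rfl
    intro φ hφ
    rw [(hS φ hφ).2.2]
  have h2 : ∑ φ ∈ S, ∏ x, lvl q J (φ x) ≤
      ∑ φ ∈ Fintype.piFinset (fun x => if x ∈ T then range (J + 1) else {ψ x}),
        ∏ x, lvl q J (φ x) := by
    apply Finset.sum_le_sum_of_subset_of_nonneg
    · intro φ hφ
      obtain ⟨a, b, c⟩ := hS φ hφ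
      rw [Fintype.mem_piFinset]
      intro x
      split_ifs with hx
      · rw [mem_range]; have := b x; omega
      · rw [mem_singleton]
        have : ¬ ψ x < φ x := by
          rw [← mem_diffSet, c]; exact hx
        have := a x
        omega
    · intro φ _ _
      exact Finset.prod_nonneg (fun x _ => hlv _)
  have h3 : ∑ φ ∈ Fintype.piFinset (fun x => if x ∈ T then range (J + 1) else {ψ x}),
        ∏ x, lvl q J (φ x) = ∏ x, (if x ∈ T then 1 else lvl q J (ψ x)) := by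
    rw [← Finset.prod_univ_sum (fun x => if x ∈ T then range (J + 1) else {ψ x})
      (fun _ j => lvl q J j)]
    apply Finset.prod_congr rfl
    intro x _
    split_ifs
    · exact sum_lvl q J
    · simp
  have h4 : (∏ x, (if x ∈ T then 1 else lvl q J (ψ x))) * q ^ T.card
      = (∏ x, lvl q J (ψ x)) * ∏ x ∈ T, wt (ψ x) := by
    have h5 : q ^ T.card = ∏ x, (if x ∈ T then q else 1) := by
      rw [Finset.prod_ite_mem]; simp only [univ_inter, prod_const]
    have h6 : ∏ x ∈ T, wt (ψ x) = ∏ x, (if x ∈ T then wt (ψ x) else 1) := by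
      rw [Finset.prod_ite_mem]; simp only [univ_inter]
    rw [h5, h6, ← Finset.prod_mul_distrib, ← Finset.prod_mul_distrib]
    apply Finset.prod_congr rfl
    intro x _
    split_ifs with hx
    · rw [lvl_mul_wt q J _ (hT x hx), one_mul]
    · rfl
  rw [h1]
  calc (∑ φ ∈ S, ∏ x, lvl q J (φ x)) * q ^ T.card
      ≤ (∏ x, (if x ∈ T then 1 else lvl q J (ψ x))) * q ^ T.card := by
        apply mul_le_mul_of_nonneg_right (h2.trans h3.le) (by (clear * - hq; positivity))
    _ = _ := h4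

open Classical in
noncomputable def sel (J : ℕ) (F : Finset (Finset X)) (lam : Finset X → X → ℝ) (ψ : X → ℕ)
    (t : ℕ → ℕ) : X → ℝ :=
  if h : ∃ H' ∈ F, AA J (lam H') ψ (fun j => ∑ i ∈ range (j + 1), t i) ≤ 1 / 2 then
    lam h.choose else 0

open Classical in
noncomputable def NN (J : ℕ) (F : Finset (Finset X)) (lam : Finset X → X → ℝ) (ψ : X → ℕ)
    (t : ℕ → ℕ) : Finset X :=
  univ.filter (fun x => 0 < ∑ i ∈ range (ψ x + 1), t i ∧
    (topSum (sel J F lam ψ t) (Cc (ψ x) * ∑ i ∈ range (ψ x + 1), t i)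
      - topSum (sel J F lam ψ t) (Cc (ψ x) * ((∑ i ∈ range (ψ x + 1), t i) - 1))) / Cc (ψ x)
      < sel J F lam ψ t x)

theorem NN_card (J : ℕ) (F : Finset (Finset X)) (lam : Finset X → X → ℝ) (ψ : X → ℕ)
    (t : ℕ → ℕ) (j : ℕ) :
    ((NN J F lam ψ t).filter (fun x => ψ x = j)).card ≤ Cc j * ∑ i ∈ range (j + 1), t i := by
  rcases Nat.eq_zero_or_pos (∑ i ∈ range (j + 1), t i) with h0 | h0
  · have : (NN J F lam ψ t).filter (fun x => ψ x = j) = ∅ := by
      rw [Finset.filter_eq_empty_iff]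
      intro x hx hxj
      unfold NN at hx
      rw [mem_filter, hxj] at hx
      omega
    rw [this]; simp
  · apply card_gt_le (sel J F lam ψ t) (Cc j) _ (Cc_pos j) h0
    intro x hx
    rw [mem_filter] at hx
    obtain ⟨hx, hxj⟩ := hx
    unfold NN at hx
    rw [mem_filter, hxj] at hx
    exact hx.2.2

theorem exists_valid' (J : ℕ) (F : Finset (Finset X)) (lam : Finset X → X → ℝ)
    (hl : ∀ H ∈ F, ∀ x, 0 ≤ lam H x) (hsum : ∀ H ∈ F, ∑ x, lam H x ≤ 1)
    (hsupp : ∀ H ∈ F, ∀ x, x ∉ H → lam H x = 0) (φ : X → ℕ) (hφ : ∀ x, φ x ≤ J)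
    (hbad : ∀ H ∈ F, 1 / 2 < ∑ x, lam H x * φ x)
    (H : Finset X) (hH : H ∈ F) :
    ∃ ψ : X → ℕ, (∀ x, ψ x ≤ φ x) ∧ diffSet φ ψ ⊆ H ∧ (diffSet φ ψ).Nonempty ∧
      diffSet φ ψ ⊆ NN J F lam ψ (prof ψ (diffSet φ ψ)) := by
  obtain ⟨ψ, h1, h2, h3, h4⟩ := exists_valid J F lam hl hsum hsupp φ hφ H hH
  have hcnt : (fun j => ∑ i ∈ range (j + 1), prof ψ (diffSet φ ψ) i) = cnt φ ψ := by
    funext j; rw [cnt_eq]
  refine ⟨ψ, h1, h2, ?_, ?_⟩
  · by_contra hne
    rw [Finset.not_nonempty_iff_eq_empty] at hne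
    obtain ⟨H', hH', hA⟩ := h3
    have hψφ : ∀ x, ψ x = φ x := by
      intro x
      have : ¬ ψ x < φ x := by
        rw [← mem_diffSet, hne]; simp
      have := h1 x
      omega
    have hA2 : ∑ x, lam H' x * φ x ≤ AA J (lam H') ψ (cnt φ ψ) := by
      unfold AA
      have e1 : ∑ x, lam H' x * φ x = ∑ x, lam H' x * ψ x := by
        apply Finset.sum_congr rfl
        intro x _
        rw [hψφ x]
      rw [e1]
      have e2 : 0 ≤ ∑ j ∈ range J, topSum (lam H') (Cc j * cnt φ ψ j) / (Cc j : ℝ) := by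
        apply Finset.sum_nonneg
        intro j _
        exact div_nonneg (topSum_nonneg _ _) (by (clear * -; positivity))
      linarith only [e2]
    have := hbad H' hH'
    linarith only [hA, hA2, this]
  · have hex : ∃ H' ∈ F, AA J (lam H') ψ
        (fun j => ∑ i ∈ range (j + 1), prof ψ (diffSet φ ψ) i) ≤ 1 / 2 := by
      rw [hcnt]; exact h3
    obtain ⟨H'', hHF, hHA, hsel⟩ : ∃ H'' ∈ F, AA J (lam H'') ψ (cnt φ ψ) ≤ 1 / 2 ∧
        sel J F lam ψ (prof ψ (diffSet φ ψ)) = lam H'' := by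
      refine ⟨hex.choose, hex.choose_spec.1, ?_, ?_⟩
      · exact (congrArg (AA J (lam hex.choose) ψ) hcnt).ge.trans hex.choose_spec.2
      · unfold sel
        rw [dif_pos hex]
    intro x hx
    rw [mem_diffSet] at hx
    have h5 := h4 _ hHF hHA x hx
    unfold NN
    rw [mem_filter]
    refine ⟨mem_univ _, ?_, ?_⟩
    · rw [← cnt_eq]
      unfold cnt
      apply Finset.card_pos.mpr
      exact ⟨x, by simp only [mem_filter, mem_univ, hx, Std.le_refl, and_self]⟩
    · rw [← cnt_eq, hsel]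
      exact h5

theorem bad_prob (q : ℝ) (hq : 0 < q) (J : ℕ) (hJ : ∑ i ∈ range J, 200 * 4 ^ i * q ≤ 1)
    (F : Finset (Finset X)) (lam : Finset X → X → ℝ)
    (hl : ∀ H ∈ F, ∀ x, 0 ≤ lam H x) (hsum : ∀ H ∈ F, ∑ x, lam H x ≤ 1)
    (hsupp : ∀ H ∈ F, ∀ x, x ∉ H → lam H x = 0)
    (hns : ∀ G : Finset (Finset X), (∀ H ∈ F, ∃ S ∈ G, S ⊆ H) → 1 / 2 < ∑ S ∈ G, q ^ S.card)
    (B : Finset (X → ℕ)) (hB : ∀ φ ∈ B, (∀ x, φ x ≤ J) ∧ ∀ H ∈ F, 1 / 2 < ∑ x, lam H x * φ x) :
    ∑ φ ∈ B, ∏ x, lvl q J (φ x) ≤ 1 / 4 := by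
  classical
  have hlv := lvl_nonneg q hq.le J hJ
  set Ω : Finset (X → ℕ) := Fintype.piFinset (fun _ => range (J + 1)) with hΩ
  have hΩmem : ∀ φ : X → ℕ, φ ∈ Ω ↔ ∀ x, φ x ≤ J := by
    intro φ
    rw [hΩ, Fintype.mem_piFinset]
    constructor
    · intro h x; have := h x; rw [mem_range] at this; omega
    · intro h x; have := h x; rw [mem_range]; omega
  let V : (X → ℕ) → (X → ℕ) → Prop := fun φ ψ =>
    (∀ x, ψ x ≤ φ x) ∧ (diffSet φ ψ).Nonempty ∧
      diffSet φ ψ ⊆ NN J F lam ψ (prof ψ (diffSet φ ψ))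
  have hcost : ∀ φ ∈ B, 1 / 2 ≤ ∑ ψ ∈ Ω.filter (fun ψ => V φ ψ), q ^ (diffSet φ ψ).card := by
    intro φ hφ
    obtain ⟨hφJ, hbad⟩ := hB φ hφ
    have hcov := hns ((Ω.filter (fun ψ => V φ ψ)).image (fun ψ => diffSet φ ψ)) (by
      intro H hH
      obtain ⟨ψ, h1, h2, h3, h4⟩ := exists_valid' J F lam hl hsum hsupp φ hφJ hbad H hH
      refine ⟨diffSet φ ψ, ?_, h2⟩
      rw [mem_image]
      refine ⟨ψ, ?_, rfl⟩
      rw [mem_filter, hΩmem]
      exact ⟨fun x => (h1 x).trans (hφJ x), h1, h3, h4⟩)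
    refine hcov.le.trans ?_
    rw [← Finset.sum_fiberwise_of_maps_to (g := fun ψ => diffSet φ ψ)
      (t := (Ω.filter (fun ψ => V φ ψ)).image (fun ψ => diffSet φ ψ))
      (fun ψ hψ => mem_image_of_mem _ hψ)]
    apply Finset.sum_le_sum
    intro S hS
    rw [mem_image] at hS
    obtain ⟨ψ, hψ, rfl⟩ := hS
    have hm : ψ ∈ (Ω.filter (fun ψ => V φ ψ)).filter
        (fun ψ' => diffSet φ ψ' = diffSet φ ψ) := by
      rw [mem_filter]; exact ⟨hψ, rfl⟩
    exact Finset.single_le_sum (f := fun ψ' => q ^ (diffSet φ ψ').card)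
      (fun i _ => by positivity) hm
  have h1 : (∑ φ ∈ B, ∏ x, lvl q J (φ x)) * (1 / 2) ≤
      ∑ φ ∈ Ω, ∑ ψ ∈ Ω.filter (fun ψ => V φ ψ),
        (∏ x, lvl q J (φ x)) * q ^ (diffSet φ ψ).card := by
    rw [Finset.sum_mul]
    calc ∑ φ ∈ B, (∏ x, lvl q J (φ x)) * (1 / 2)
        ≤ ∑ φ ∈ B, ∑ ψ ∈ Ω.filter (fun ψ => V φ ψ),
            (∏ x, lvl q J (φ x)) * q ^ (diffSet φ ψ).card := by
          apply Finset.sum_le_sum
          intro φ hφ
          rw [← Finset.mul_sum]
          exact mul_le_mul_of_nonneg_left (hcost φ hφ)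
            (Finset.prod_nonneg (fun x _ => hlv _))
      _ ≤ _ := by
          apply Finset.sum_le_sum_of_subset_of_nonneg
          · intro φ hφ
            rw [hΩmem]
            exact (hB φ hφ).1
          · intro φ _ _
            apply Finset.sum_nonneg
            intro ψ _
            exact mul_nonneg (Finset.prod_nonneg (fun x _ => hlv _)) (by positivity)
  have h2 : ∑ φ ∈ Ω, ∑ ψ ∈ Ω.filter (fun ψ => V φ ψ),
        (∏ x, lvl q J (φ x)) * q ^ (diffSet φ ψ).card
      = ∑ ψ ∈ Ω, ∑ φ ∈ Ω.filter (fun φ => V φ ψ),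
        (∏ x, lvl q J (φ x)) * q ^ (diffSet φ ψ).card := by
    apply Finset.sum_comm'
    intro φ ψ
    simp only [mem_filter]
    (clear * -; tauto)
  have h3 : ∀ ψ ∈ Ω, ∑ φ ∈ Ω.filter (fun φ => V φ ψ),
        (∏ x, lvl q J (φ x)) * q ^ (diffSet φ ψ).card ≤ (∏ x, lvl q J (ψ x)) * (1 / 8) := by
    intro ψ _
    have hc := count_bound J ψ (NN J F lam ψ) (fun t j _ => NN_card J F lam ψ t j)
    set W := univ.filter (fun T : Finset X => T.Nonempty ∧ (∀ x ∈ T, ψ x < J) ∧
      T ⊆ NN J F lam ψ (prof ψ T)) with hW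
    rw [← Finset.sum_fiberwise_of_maps_to (g := fun φ => diffSet φ ψ) (t := W)]
    · calc ∑ T ∈ W, ∑ φ ∈ (Ω.filter (fun φ => V φ ψ)).filter (fun φ => diffSet φ ψ = T),
            (∏ x, lvl q J (φ x)) * q ^ (diffSet φ ψ).card
          ≤ ∑ T ∈ W, (∏ x, lvl q J (ψ x)) * ∏ x ∈ T, wt (ψ x) := by
            apply Finset.sum_le_sum
            intro T hT
            rw [hW, mem_filter] at hT
            apply inner_sum q hq.le J hJ ψ T hT.2.2.1
            intro φ hφ
            rw [mem_filter, mem_filter, hΩmem] at hφ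
            exact ⟨hφ.1.2.1, hφ.1.1, hφ.2⟩
        _ = (∏ x, lvl q J (ψ x)) * ∑ T ∈ W, ∏ x ∈ T, wt (ψ x) := by
            rw [Finset.mul_sum]
        _ ≤ _ := mul_le_mul_of_nonneg_left hc (Finset.prod_nonneg (fun x _ => hlv _))
    · intro φ hφ
      rw [mem_filter, hΩmem] at hφ
      obtain ⟨hφJ, _, hne, hsub⟩ := hφ
      rw [hW, mem_filter]
      refine ⟨mem_univ _, hne, ?_, hsub⟩
      intro x hx
      rw [mem_diffSet] at hx
      exact lt_of_lt_of_le hx (hφJ x)
  have h4 : ∑ ψ ∈ Ω, (∏ x, lvl q J (ψ x)) * (1 / 8) = 1 / 8 := by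
    rw [← Finset.sum_mul, hΩ,
      ← Finset.prod_univ_sum (fun _ : X => range (J + 1)) (fun _ j => lvl q J j)]
    simp only [sum_lvl, prod_const_one, one_div, one_mul]
  have h5 := Finset.sum_le_sum h3
  rw [h4] at h5
  rw [h2] at h1
  linarith only [h1, h5]

end Vale.Agent.P034
end

section

namespace Vale.Agent.P034

open Finset

set_option linter.unusedSectionVars false

variable {X : Type*} [Fintype X] [DecidableEq X]

noncomputable def lamOf (g : Finset X → ℝ) (H : Finset X) (x : X) : ℝ :=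
  (∑ S ∈ H.powerset, if x ∈ S then g S / S.card else 0) / ∑ S ∈ H.powerset, g S

theorem lamOf_sum (g : Finset X → ℝ) (H : Finset X) (f : X → ℝ) :
    ∑ x, lamOf g H x * f x =
      (∑ S ∈ H.powerset, ∑ x ∈ S, g S / S.card * f x) / ∑ S ∈ H.powerset, g S := by
  unfold lamOf
  have h1 : ∀ x, (∑ S ∈ H.powerset, if x ∈ S then g S / (S.card : ℝ) else 0) /
      (∑ S ∈ H.powerset, g S) * f x =
      (∑ S ∈ H.powerset, if x ∈ S then g S / (S.card : ℝ) * f x else 0) /
        ∑ S ∈ H.powerset, g S := by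
    intro x
    rw [div_mul_eq_mul_div, Finset.sum_mul]
    congr 1
    apply Finset.sum_congr rfl
    intro S _
    split_ifs <;> simp
  rw [Finset.sum_congr rfl (fun x _ => h1 x), ← Finset.sum_div, Finset.sum_comm]
  congr 1
  apply Finset.sum_congr rfl
  intro S _
  rw [Finset.sum_ite_mem]
  simp only [univ_inter]

theorem lamOf_nonneg (g : Finset X → ℝ) (hg : ∀ S, 0 ≤ g S) (H : Finset X) (x : X) :
    0 ≤ lamOf g H x := by
  unfold lamOf
  apply div_nonneg
  · apply Finset.sum_nonneg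
    intro S _
    split_ifs
    · exact div_nonneg (hg S) (by (clear * -; positivity))
    · exact le_rfl
  · exact Finset.sum_nonneg (fun S _ => hg S)

theorem lamOf_supp (g : Finset X → ℝ) (H : Finset X) (x : X) (hx : x ∉ H) :
    lamOf g H x = 0 := by
  unfold lamOf
  rw [Finset.sum_eq_zero, zero_div]
  intro S hS
  rw [mem_powerset] at hS
  rw [if_neg (fun h => hx (hS h))]

theorem lamOf_sum_le (g : Finset X → ℝ) (hg : ∀ S, 0 ≤ g S) (H : Finset X)
    (hH : 1 ≤ ∑ S ∈ H.powerset, g S) : ∑ x, lamOf g H x ≤ 1 := by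
  have h := lamOf_sum g H (fun _ => 1)
  simp only [mul_one] at h
  rw [h, div_le_one (by linarith only [hH])]
  apply Finset.sum_le_sum
  intro S _
  rw [Finset.sum_const, nsmul_eq_mul]
  rcases Nat.eq_zero_or_pos S.card with h0 | h0
  · rw [h0]; simp [hg S]
  · have : (0 : ℝ) < S.card := by exact_mod_cast h0
    rw [mul_div_cancel₀ _ this.ne']

theorem prod_bound (φ : X → ℕ) (S : Finset X) :
    1 - (∑ x ∈ S, (φ x : ℝ)) / S.card ≤ ∏ x ∈ S, (8 * (1 / 8 : ℝ) ^ φ x) := by
  rw [Finset.prod_mul_distrib, Finset.prod_const, Finset.prod_pow_eq_pow_sum]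
  set s := ∑ x ∈ S, φ x with hs
  have hcast : (∑ x ∈ S, (φ x : ℝ)) = (s : ℝ) := by rw [hs]; push_cast; rfl
  rw [hcast]
  rcases Nat.lt_or_ge S.card s with h | h
  · have h1 : (1 : ℝ) ≤ (s : ℝ) / S.card ∨ S.card = 0 := by
      rcases Nat.eq_zero_or_pos S.card with h0 | h0
      · right; exact h0
      · left
        rw [le_div_iff₀ (by exact_mod_cast h0), one_mul]
        exact_mod_cast h.le
    rcases h1 with h1 | h1
    · have : (0 : ℝ) ≤ 8 ^ S.card * (1 / 8) ^ s := by positivity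
      linarith only [h1, this]
    · rw [Finset.card_eq_zero] at h1
      rw [hs, h1] at h
      simp at h
  · have h1 : (1 : ℝ) ≤ 8 ^ S.card * (1 / 8) ^ s := by
      have : (8 : ℝ) ^ S.card = 8 ^ (S.card - s) * 8 ^ s := by
        rw [← pow_add]; congr 1; omega
      rw [this, mul_assoc, ← mul_pow]
      norm_num
      exact one_le_pow₀ (by norm_num)
    have h2 : (0 : ℝ) ≤ (s : ℝ) / S.card := by (clear * -; positivity)
    linarith only [h1, h2]

theorem good_bound (g : Finset X → ℝ) (hg : ∀ S, 0 ≤ g S) (H : Finset X)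
    (hH : 1 ≤ ∑ S ∈ H.powerset, g S) (φ : X → ℕ)
    (hgood : ∑ x, lamOf g H x * φ x ≤ 1 / 2) :
    1 / 2 ≤ ∑ S : Finset X, g S * ∏ x ∈ S, (8 * (1 / 8 : ℝ) ^ φ x) := by
  rw [lamOf_sum, div_le_iff₀ (by linarith only [hH])] at hgood
  have h1 : ∑ S ∈ H.powerset, (g S - ∑ x ∈ S, g S / S.card * φ x) ≤
      ∑ S ∈ H.powerset, g S * ∏ x ∈ S, (8 * (1 / 8 : ℝ) ^ φ x) := by
    apply Finset.sum_le_sum
    intro S _
    have h2 := mul_le_mul_of_nonneg_left (prod_bound φ S) (hg S)
    refine le_trans (le_of_eq ?_) h2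
    rw [← Finset.mul_sum]
    ring
  rw [Finset.sum_sub_distrib] at h1
  have h3 : ∑ S ∈ H.powerset, g S * ∏ x ∈ S, (8 * (1 / 8 : ℝ) ^ φ x) ≤
      ∑ S : Finset X, g S * ∏ x ∈ S, (8 * (1 / 8 : ℝ) ^ φ x) := by
    apply Finset.sum_le_sum_of_subset_of_nonneg (Finset.subset_univ _)
    intro S _ _
    exact mul_nonneg (hg S) (Finset.prod_nonneg (fun x _ => by positivity))
  linarith only [hH, hgood, h1, h3]

theorem exp_bound (q : ℝ) (hq : 0 < q) (J : ℕ)
    (hJ2 : 1 / 2 ≤ 200 * 4 ^ J * q) :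
    ∑ j ∈ range (J + 1), lvl q J j * (1 / 8 : ℝ) ^ j ≤ 800 * q := by
  rw [Finset.sum_range_succ]
  have h1 : ∑ j ∈ range J, lvl q J j * (1 / 8 : ℝ) ^ j ≤ 400 * q := by
    have h2 : ∀ j ∈ range J, lvl q J j * (1 / 8 : ℝ) ^ j = 200 * q * (1 / (2 : ℝ)) ^ j := by
      intro j hj
      rw [mem_range] at hj
      unfold lvl
      rw [if_pos hj]
      have : (4 : ℝ) ^ j * (1 / 8) ^ j = (1 / 2) ^ j := by
        rw [← mul_pow]; norm_num
      calc 200 * 4 ^ j * q * (1 / 8 : ℝ) ^ j = 200 * q * (4 ^ j * (1 / 8) ^ j) := by ring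
        _ = _ := by rw [this]
    rw [Finset.sum_congr rfl h2, ← Finset.mul_sum]
    have := sum_geometric_two_le J
    nlinarith only [hq, this]
  have h3 : lvl q J J ≤ 1 := by
    unfold lvl
    rw [if_neg (lt_irrefl J)]
    have : 0 ≤ ∑ i ∈ range J, 200 * 4 ^ i * q := by
      apply Finset.sum_nonneg
      intro i _
      positivity
    linarith only [this]
  have h4 : (1 / 8 : ℝ) ^ J ≤ 400 * q := by
    have h5 : (1 / 8 : ℝ) ^ J ≤ (1 / 4) ^ J :=
      pow_le_pow_left₀ (by norm_num) (by norm_num) J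
    have h6 : (1 / 4 : ℝ) ^ J * 4 ^ J = 1 := by
      rw [← mul_pow]; norm_num
    have h7 : (0 : ℝ) < (1 / 4) ^ J := by positivity
    have h8 : (1 / 4 : ℝ) ^ J * (1 / 2) ≤ (1 / 4) ^ J * (200 * 4 ^ J * q) :=
      mul_le_mul_of_nonneg_left hJ2 h7.le
    have h9 : (1 / 4 : ℝ) ^ J * (200 * 4 ^ J * q) = 200 * q := by
      calc (1 / 4 : ℝ) ^ J * (200 * 4 ^ J * q) = 200 * q * ((1 / 4 : ℝ) ^ J * 4 ^ J) := by ring
        _ = _ := by rw [h6]; ring
    linarith only [h5, h8, h9]
  have h10 : lvl q J J * (1 / 8 : ℝ) ^ J ≤ 1 * (1 / 8) ^ J :=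
    mul_le_mul_of_nonneg_right h3 (by positivity)
  linarith only [h1, h4, h10]

theorem core0 (F : Finset (Finset X)) (g : Finset X → ℝ) (hg : ∀ S, 0 ≤ g S)
    (hF : ∀ H ∈ F, 1 ≤ ∑ S ∈ H.powerset, g S) (q : ℝ) (hq : 0 < q)
    (hns : ∀ G : Finset (Finset X), (∀ H ∈ F, ∃ S ∈ G, S ⊆ H) →
      1 / 2 < ∑ S ∈ G, q ^ S.card) :
    3 / 8 ≤ ∑ S : Finset X, g S * (6400 * q) ^ S.card := by
  classical
  obtain ⟨J, hJ, hJ2⟩ := exists_J q hq
  have hlv := lvl_nonneg q hq.le J hJ
  set Ω : Finset (X → ℕ) := Fintype.piFinset (fun _ => range (J + 1)) with hΩ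
  have hΩmem : ∀ φ : X → ℕ, φ ∈ Ω → ∀ x, φ x ≤ J := by
    intro φ h x
    rw [hΩ, Fintype.mem_piFinset] at h
    have := h x
    rw [mem_range] at this
    omega
  have htot : ∑ φ ∈ Ω, ∏ x, lvl q J (φ x) = 1 := by
    rw [hΩ, ← Finset.prod_univ_sum (fun _ : X => range (J + 1)) (fun _ j => lvl q J j)]
    simp only [sum_lvl, prod_const_one]
  have hbad := bad_prob q hq J hJ F (lamOf g) (fun H _ x => lamOf_nonneg g hg H x)
    (fun H hH => lamOf_sum_le g hg H (hF H hH)) (fun H _ x hx => lamOf_supp g H x hx) hns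
    (Ω.filter (fun φ => ∀ H ∈ F, 1 / 2 < ∑ x, lamOf g H x * φ x)) (by
      intro φ hφ
      rw [mem_filter] at hφ
      exact ⟨hΩmem φ hφ.1, hφ.2⟩)
  have hgood : 3 / 4 ≤ ∑ φ ∈ Ω.filter (fun φ => ¬ ∀ H ∈ F, 1 / 2 < ∑ x, lamOf g H x * φ x),
      ∏ x, lvl q J (φ x) := by
    have := Finset.sum_filter_add_sum_filter_not Ω
      (fun φ : X → ℕ => ∀ H ∈ F, 1 / 2 < ∑ x, lamOf g H x * φ x)
      (fun φ => ∏ x, lvl q J (φ x))
    linarith only [htot, hbad, this]
  have hE1 : 3 / 8 ≤ ∑ φ ∈ Ω, (∏ x, lvl q J (φ x)) *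
      ∑ S : Finset X, g S * ∏ x ∈ S, (8 * (1 / 8 : ℝ) ^ φ x) := by
    calc (3 / 8 : ℝ) ≤ (∑ φ ∈ Ω.filter (fun φ => ¬ ∀ H ∈ F, 1 / 2 < ∑ x, lamOf g H x * φ x),
          ∏ x, lvl q J (φ x)) * (1 / 2) := by linarith only [hgood]
      _ ≤ ∑ φ ∈ Ω.filter (fun φ => ¬ ∀ H ∈ F, 1 / 2 < ∑ x, lamOf g H x * φ x),
          (∏ x, lvl q J (φ x)) * ∑ S : Finset X, g S * ∏ x ∈ S, (8 * (1 / 8 : ℝ) ^ φ x) := by
        rw [Finset.sum_mul]
        apply Finset.sum_le_sum
        intro φ hφ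
        rw [mem_filter] at hφ
        obtain ⟨_, hφ2⟩ := hφ
        push Not at hφ2
        obtain ⟨H, hH, hle⟩ := hφ2
        apply mul_le_mul_of_nonneg_left _ (Finset.prod_nonneg (fun x _ => hlv _))
        exact good_bound g hg H (hF H hH) φ hle
      _ ≤ _ := by
        apply Finset.sum_le_sum_of_subset_of_nonneg (Finset.filter_subset _ _)
        intro φ _ _
        apply mul_nonneg (Finset.prod_nonneg (fun x _ => hlv _))
        apply Finset.sum_nonneg
        intro S _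
        exact mul_nonneg (hg S) (Finset.prod_nonneg (fun x _ => by positivity))
  have hE2 : ∑ φ ∈ Ω, (∏ x, lvl q J (φ x)) *
      ∑ S : Finset X, g S * ∏ x ∈ S, (8 * (1 / 8 : ℝ) ^ φ x)
      = ∑ S : Finset X, g S *
        (8 * ∑ j ∈ range (J + 1), lvl q J j * (1 / 8 : ℝ) ^ j) ^ S.card := by
    calc ∑ φ ∈ Ω, (∏ x, lvl q J (φ x)) *
          ∑ S : Finset X, g S * ∏ x ∈ S, (8 * (1 / 8 : ℝ) ^ φ x)
        = ∑ φ ∈ Ω, ∑ S : Finset X, g S *
          ∏ x, (lvl q J (φ x) * if x ∈ S then (8 * (1 / 8 : ℝ) ^ φ x) else 1) := by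
          apply Finset.sum_congr rfl
          intro φ _
          rw [Finset.mul_sum]
          apply Finset.sum_congr rfl
          intro S _
          have hprod : ∏ x, (lvl q J (φ x) * if x ∈ S then (8 * (1 / 8 : ℝ) ^ φ x) else 1)
              = (∏ x, lvl q J (φ x)) * ∏ x ∈ S, (8 * (1 / 8 : ℝ) ^ φ x) := by
            rw [Finset.prod_mul_distrib]
            congr 1
            rw [Finset.prod_ite_mem, Finset.univ_inter]
          rw [hprod]
          ring
      _ = ∑ S : Finset X, ∑ φ ∈ Ω, g S *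
          ∏ x, (lvl q J (φ x) * if x ∈ S then (8 * (1 / 8 : ℝ) ^ φ x) else 1) :=
          Finset.sum_comm
      _ = _ := by
          apply Finset.sum_congr rfl
          intro S _
          rw [← Finset.mul_sum, hΩ,
            ← Finset.prod_univ_sum (fun _ : X => range (J + 1))
              (fun x j => lvl q J j * if x ∈ S then (8 * (1 / 8 : ℝ) ^ j) else 1)]
          congr 1
          have h1 : ∀ x, ∑ j ∈ range (J + 1),
              (lvl q J j * if x ∈ S then (8 * (1 / 8 : ℝ) ^ j) else 1)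
              = if x ∈ S then (8 * ∑ j ∈ range (J + 1), lvl q J j * (1 / 8 : ℝ) ^ j) else 1 := by
            intro x
            split_ifs
            · rw [Finset.mul_sum]
              apply Finset.sum_congr rfl
              intro j _
              ring
            · simp [sum_lvl]
          rw [Finset.prod_congr rfl (fun x _ => h1 x), Finset.prod_ite_mem]
          simp only [univ_inter, one_div, inv_pow, prod_const]
  rw [hE2] at hE1
  refine hE1.trans ?_
  apply Finset.sum_le_sum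
  intro S _
  apply mul_le_mul_of_nonneg_left _ (hg S)
  have hnn : 0 ≤ ∑ j ∈ range (J + 1), lvl q J j * (1 / 8 : ℝ) ^ j := by
    apply Finset.sum_nonneg
    intro j _
    exact mul_nonneg (hlv j) (by positivity)
  apply pow_le_pow_left₀ (by (clear * - hnn; positivity))
  have := exp_bound q hq J hJ2
  linarith only [this]

end Vale.Agent.P034
end

section

namespace Vale.Agent.P034

open Finset

set_option linter.unusedSectionVars false

variable {X : Type*} [Fintype X]

theorem isSmall_zero (F : Set (Finset X)) (h0 : ∅ ∉ F) : IsSmall 0 F := by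
  classical
  refine ⟨univ.filter (fun S : Finset X => S ≠ ∅), ?_, ?_⟩
  · intro H hH
    refine ⟨H, ?_, Finset.Subset.refl H⟩
    rw [mem_filter]
    exact ⟨mem_univ _, fun h => h0 (h ▸ hH)⟩
  · unfold coverCost
    rw [Finset.sum_eq_zero]
    · norm_num
    · intro S hS
      rw [mem_filter] at hS
      apply zero_pow
      rw [Ne, Finset.card_eq_zero]
      exact hS.2

theorem isSmall_of_frac (F : Set (Finset X)) (h0 : ∅ ∉ F) (p : ℝ) (hp : 0 ≤ p)
    (g : Finset X → ℝ) (hg : IsFracCover g F) (hw : fracCost g p ≤ 1 / 2) :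
    IsSmall (p / 12800) F := by
  classical
  rcases hp.eq_or_lt with rfl | hp
  · rw [zero_div]
    exact isSmall_zero F h0
  by_contra hns
  have hns' : ∀ G : Finset (Finset X), (∀ H ∈ F.toFinset, ∃ S ∈ G, S ⊆ H) →
      1 / 2 < ∑ S ∈ G, (p / 12800) ^ S.card := by
    intro G hG
    by_contra hcon
    push Not at hcon
    exact hns ⟨G, fun H hH => hG H (Set.mem_toFinset.mpr hH), hcon⟩
  obtain ⟨hg01, hgF⟩ := hg
  unfold fracCost at hw
  have hsplit : ∑ S : Finset X, g S * p ^ S.card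
      = g ∅ + ∑ S ∈ univ.erase (∅ : Finset X), g S * p ^ S.card := by
    rw [← Finset.add_sum_erase _ _ (mem_univ (∅ : Finset X))]
    simp only [card_empty, pow_zero, mul_one, mem_univ, sum_erase_eq_sub, add_sub_cancel]
  have hrest : 0 ≤ ∑ S ∈ univ.erase (∅ : Finset X), g S * p ^ S.card :=
    Finset.sum_nonneg (fun S _ => mul_nonneg (hg01 S).1 (by positivity))
  have hγ0 : 0 ≤ g ∅ := (hg01 ∅).1
  have hγ : g ∅ ≤ 1 / 2 := by linarith
  have h1γ : 0 < 1 - g ∅ := by linarith only [hw, hsplit, hrest]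
  have hcore := core0 F.toFinset (fun S => if S = ∅ then 0 else g S / (1 - g ∅))
    (by
      intro S
      split_ifs
      · exact le_rfl
      · exact div_nonneg (hg01 S).1 h1γ.le)
    (by
      intro H hH
      have h1 := hgF H (Set.mem_toFinset.mp hH)
      have hmem : (∅ : Finset X) ∈ H.powerset := by simp
      rw [← Finset.add_sum_erase _ _ hmem] at h1
      rw [← Finset.add_sum_erase _ _ hmem]
      have h2 : ∑ S ∈ H.powerset.erase ∅, (if S = ∅ then 0 else g S / (1 - g ∅))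
          = (∑ S ∈ H.powerset.erase ∅, g S) / (1 - g ∅) := by
        rw [Finset.sum_div]
        apply Finset.sum_congr rfl
        intro S hS
        rw [if_neg (Finset.ne_of_mem_erase hS)]
      rw [h2]
      simp only [if_true, zero_add]
      rw [le_div_iff₀ h1γ]
      linarith only [h1])
    (p / 12800) (by positivity) hns'
  have h3 : ∑ S : Finset X, (if S = ∅ then 0 else g S / (1 - g ∅)) * (6400 * (p / 12800)) ^ S.card
      ≤ (∑ S ∈ univ.erase (∅ : Finset X), g S * p ^ S.card) / (1 - g ∅) / 2 := by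
    rw [← Finset.add_sum_erase _ _ (mem_univ (∅ : Finset X)), Finset.sum_div, Finset.sum_div]
    simp only [if_true, zero_mul, zero_add]
    apply Finset.sum_le_sum
    intro S hS
    have hS0 := Finset.ne_of_mem_erase hS
    rw [if_neg hS0]
    have hc : 1 ≤ S.card := Finset.card_pos.mpr (Finset.nonempty_iff_ne_empty.mpr hS0)
    have h4 : (6400 * (p / 12800)) ^ S.card ≤ p ^ S.card / 2 := by
      have h5 : (6400 * (p / 12800)) ^ S.card = p ^ S.card * (1 / 2) ^ S.card := by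
        rw [← mul_pow]; congr 1; ring
      rw [h5]
      have h6 : (1 / 2 : ℝ) ^ S.card ≤ (1 / 2) ^ 1 :=
        pow_le_pow_of_le_one (by norm_num) (by norm_num) hc
      have h7 : 0 ≤ p ^ S.card := by positivity
      nlinarith only [h6, h7]
    have h8 : 0 ≤ g S / (1 - g ∅) := div_nonneg (hg01 S).1 h1γ.le
    calc g S / (1 - g ∅) * (6400 * (p / 12800)) ^ S.card
        ≤ g S / (1 - g ∅) * (p ^ S.card / 2) := mul_le_mul_of_nonneg_left h4 h8
      _ = g S * p ^ S.card / (1 - g ∅) / 2 := by ring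
  have h9 : (∑ S ∈ univ.erase (∅ : Finset X), g S * p ^ S.card) / (1 - g ∅) ≤ 1 / 2 := by
    rw [div_le_iff₀ h1γ]
    linarith only [hw, hsplit, hγ0]
  have h10 := hcore.trans h3
  linarith only [hcore, h3, h9]

theorem isCompact_smallParams (F : Set (Finset X)) : IsCompact (smallParams F) := by
  classical
  have h : smallParams F = ⋃ G : Finset (Finset X),
      {p : ℝ | p ∈ Set.Icc (0 : ℝ) 1 ∧ Covers G F ∧ coverCost p G ≤ 1 / 2} := by
    ext p
    simp only [smallParams, IsSmall, Set.mem_iUnion, Set.mem_ofPred_eq, Set.mem_Icc]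
    constructor
    · rintro ⟨h1, h2, G, h3, h4⟩
      exact ⟨G, ⟨h1, h2⟩, h3, h4⟩
    · rintro ⟨G, ⟨h1, h2⟩, h3, h4⟩
      exact ⟨h1, h2, G, h3, h4⟩
  rw [h]
  apply isCompact_iUnion
  intro G
  by_cases hG : Covers G F
  · have h2 : {p : ℝ | p ∈ Set.Icc (0 : ℝ) 1 ∧ Covers G F ∧ coverCost p G ≤ 1 / 2}
        = Set.Icc (0 : ℝ) 1 ∩ {p : ℝ | coverCost p G ≤ 1 / 2} := by
      ext p
      simp only [Set.mem_Icc, hG, one_div, true_and, Set.mem_ofPred_eq, Set.mem_inter_iff]
    rw [h2]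
    apply isCompact_Icc.inter_right
    apply isClosed_le _ continuous_const
    unfold coverCost
    fun_prop
  · have h2 : {p : ℝ | p ∈ Set.Icc (0 : ℝ) 1 ∧ Covers G F ∧ coverCost p G ≤ 1 / 2} = ∅ := by
      ext p
      simp only [Set.mem_Icc, hG, one_div, false_and, and_false, Set.ofPred_false, Set.mem_empty_iff_false]
    rw [h2]
    exact isCompact_empty

theorem isCompact_fracParams (F : Set (Finset X)) : IsCompact (fracParams F) := by
  classical
  set C : Set ((Finset X → ℝ) × ℝ) :=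
    ((Set.pi Set.univ (fun _ => Set.Icc (0 : ℝ) 1)) ×ˢ Set.Icc (0 : ℝ) 1) ∩
      ({x | ∀ H ∈ F, 1 ≤ ∑ S ∈ H.powerset, x.1 S} ∩ {x | fracCost x.1 x.2 ≤ 1 / 2}) with hC
  have hcomp : IsCompact C := by
    apply IsCompact.inter_right
    · exact (isCompact_univ_pi (fun _ => isCompact_Icc)).prod isCompact_Icc
    · apply IsClosed.inter
      · have : {x : (Finset X → ℝ) × ℝ | ∀ H ∈ F, 1 ≤ ∑ S ∈ H.powerset, x.1 S}
            = ⋂ H ∈ F, {x : (Finset X → ℝ) × ℝ | 1 ≤ ∑ S ∈ H.powerset, x.1 S} := by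
          ext x; simp only [Set.mem_ofPred_eq, Set.mem_iInter]
        rw [this]
        apply isClosed_biInter
        intro H _
        apply isClosed_le continuous_const
        fun_prop
      · apply isClosed_le _ continuous_const
        unfold fracCost
        fun_prop
  have h : fracParams F = Prod.snd '' C := by
    ext p
    simp only [fracParams, IsFracCover, Set.mem_ofPred_eq, Set.mem_image, hC, Set.mem_inter_iff,
      Set.mem_prod, Set.mem_univ_pi, Set.mem_Icc, Prod.exists, exists_eq_right]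
    constructor
    · rintro ⟨h1, h2, g, ⟨h3, h4⟩, h5⟩
      exact ⟨g, ⟨h3, h1, h2⟩, h4, h5⟩
    · rintro ⟨g, ⟨h3, h1, h2⟩, h4, h5⟩
      exact ⟨h1, h2, g, ⟨h3, h4⟩, h5⟩
  rw [h]
  exact hcomp.image continuous_snd

theorem zero_mem_smallParams (F : Set (Finset X)) (h0 : ∅ ∉ F) : (0 : ℝ) ∈ smallParams F :=
  ⟨le_rfl, zero_le_one, isSmall_zero F h0⟩

theorem zero_mem_fracParams (F : Set (Finset X)) (h0 : ∅ ∉ F) : (0 : ℝ) ∈ fracParams F := by
  classical
  refine ⟨le_rfl, zero_le_one, fun S => if S = ∅ then 0 else 1, ⟨?_, ?_⟩, ?_⟩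
  · intro S
    dsimp only
    split_ifs <;> norm_num
  · intro H hH
    have h1 : (if H = ∅ then (0 : ℝ) else 1) ≤ ∑ S ∈ H.powerset, if S = ∅ then (0 : ℝ) else 1 := by
      apply Finset.single_le_sum (f := fun S : Finset X => if S = ∅ then (0 : ℝ) else 1)
      · intro S _
        split_ifs <;> norm_num
      · simp
    rw [if_neg (show ¬ H = ∅ from fun h => h0 (h ▸ hH))] at h1
    exact h1
  · unfold fracCost
    rw [Finset.sum_eq_zero]
    · norm_num
    · intro S _
      dsimp only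
      split_ifs with hS
      · simp
      · rw [zero_pow, mul_zero]
        rw [Ne, Finset.card_eq_zero]
        exact hS

theorem isGreatest_small (F : Set (Finset X)) (h0 : ∅ ∉ F) :
    IsGreatest (smallParams F) (expThreshold F) :=
  (isCompact_smallParams F).isGreatest_sSup ⟨0, zero_mem_smallParams F h0⟩

theorem isGreatest_frac (F : Set (Finset X)) (h0 : ∅ ∉ F) :
    IsGreatest (fracParams F) (fracExpThreshold F) :=
  (isCompact_fracParams F).isGreatest_sSup ⟨0, zero_mem_fracParams F h0⟩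

theorem threshold_le (F : Set (Finset X)) (h0 : ∅ ∉ F) :
    fracExpThreshold F ≤ 12800 * expThreshold F := by
  obtain ⟨⟨h1, h2, g, h3, h4⟩, _⟩ := isGreatest_frac F h0
  have h5 := isSmall_of_frac F h0 _ h1 g h3 h4
  have h6 := (isGreatest_small F h0).2 (show fracExpThreshold F / 12800 ∈ smallParams F from
    ⟨by (clear * - h1; positivity), by linarith only [h2], h5⟩)
  linarith only [h6]

theorem empty_not_mem (F : Set (Finset X)) (hne : F ≠ Set.univ) (hup : IsUpperSet F) :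
    ∅ ∉ F := by
  intro h
  apply hne
  ext S
  simp only [Set.mem_univ, iff_true]
  exact hup (Finset.empty_subset S) h

theorem main (F : Set (Finset X)) (hne : F ≠ Set.univ) (hup : IsUpperSet F) :
    IsGreatest (smallParams F) (expThreshold F) ∧
    IsGreatest (fracParams F) (fracExpThreshold F) ∧
    fracExpThreshold F ≤ 12800 * expThreshold F := by
  have h0 := empty_not_mem F hne hup
  exact ⟨isGreatest_small F h0, isGreatest_frac F h0, threshold_le F h0⟩

end Vale.Agent.P034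
end
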